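import Vale.Agent.P043.Z3.Main

/-! P043: in every dimension at least three there is a finite tile of the integer lattice, and a
bounded measurable tile of Euclidean space, that tiles by translations but not periodically. -/

namespace Vale.Agent.Results.P043.PeriodicTilingFails

open MeasureTheory

theorem result :
    (∀ d : ℕ, 3 ≤ d → ∃ F : Finset (Fin d → ℤ), F.Nonempty ∧
      (∃ A : Set (Fin d → ℤ), ∀ g, ∃! p : (Fin d → ℤ) × (Fin d → ℤ),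
        p.1 ∈ A ∧ p.2 ∈ F ∧ p.1 + p.2 = g) ∧
      ∀ A : Set (Fin d → ℤ),
        (∀ g, ∃! p : (Fin d → ℤ) × (Fin d → ℤ), p.1 ∈ A ∧ p.2 ∈ F ∧ p.1 + p.2 = g) →
        ∀ H : AddSubgroup (Fin d → ℤ), H.FiniteIndex → ¬ ∀ h ∈ H, ∀ a, a + h ∈ A ↔ a ∈ A) ∧
    (∀ d : ℕ, 3 ≤ d → ∃ Ω : Set (Fin d → ℝ),
      MeasurableSet Ω ∧ Bornology.IsBounded Ω ∧ 0 < volume Ω ∧
      (∃ A : Set (Fin d → ℝ), (∀ᵐ x, ∃ a ∈ A, x - a ∈ Ω) ∧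
        ∀ a ∈ A, ∀ b ∈ A, a ≠ b → volume {x : Fin d → ℝ | x - a ∈ Ω ∧ x - b ∈ Ω} = 0) ∧
      ∀ A : Set (Fin d → ℝ), (∀ᵐ x, ∃ a ∈ A, x - a ∈ Ω) →
        (∀ a ∈ A, ∀ b ∈ A, a ≠ b → volume {x : Fin d → ℝ | x - a ∈ Ω ∧ x - b ∈ Ω} = 0) →
        ¬ ∃ v : Fin d → (Fin d → ℝ), LinearIndependent ℝ v ∧ ∀ j x, x + v j ∈ A ↔ x ∈ A) :=
  ⟨Vale.Agent.P043.Z3.discrete_counterexample, Vale.Agent.P043.Z3.euclidean_counterexample⟩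

end Vale.Agent.Results.P043.PeriodicTilingFails
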