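import Vale.Agent.P043.Generic
import Vale.Agent.P043.Periodic

/-! P043: periodic tilings exist for tiles whose pairings span at least hyperplanes, in particular
for every tile of `ℤ^3` with, for each direction, a point alone on its line. -/

namespace Vale.Agent.Results.P043.TilesBeyondPrisms

open Vale.Agent.P043

theorem result :
    (∀ (F : Finset (Fin 3 → ℤ)),
        (∀ v : Fin 3 → ℤ, v ≠ 0 →
          ∃ f ∈ F, ∀ g ∈ F, g ≠ f → ∀ a b : ℤ, b ≠ 0 → b • (g - f) ≠ a • v) →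
        (∃ A, IsTiling A F) →
        ∃ (B : Set (Fin 3 → ℤ)) (N : ℕ), IsTiling B F ∧ 0 < N ∧
          ∀ v a : Fin 3 → ℤ, a + N • v ∈ B ↔ a ∈ B)
      ∧ (∀ (d : ℕ) (F : Finset (Fin d → ℤ)), 1 ≤ d → AlmostRigid F → (∃ A, IsTiling A F) →
        ∃ (B : Set (Fin d → ℤ)) (N : ℕ), IsTiling B F ∧ 0 < N ∧
          ∀ v a : Fin d → ℤ, a + N • v ∈ B ↔ a ∈ B)
      ∧ (∀ (d : ℕ) (F : Finset (Fin d → ℤ)), Rigid F →
        ∃ N : ℕ, 0 < N ∧ ∀ A : Set (Fin d → ℤ), IsTiling A F →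
          ∀ v a : Fin d → ℤ, a + N • v ∈ A ↔ a ∈ A)
      ∧ (∀ d k : ℕ, 1 ≤ d → 2 * d - 1 ≤ k →
          ∃ P : MvPolynomial (Fin k × Fin d) ℤ, P ≠ 0 ∧ ∀ x : Fin k → Fin d → ℤ,
            MvPolynomial.eval (fun p => x p.1 p.2) P ≠ 0 →
              Function.Injective x ∧ Rigid (Finset.univ.image x))
      ∧ (∀ d k : ℕ, 1 ≤ d → 2 * d - 1 ≤ k →
          ∃ F : Finset (Fin d → ℤ), F.card = k ∧ Rigid F ∧ ∃ A, IsTiling A F) :=
  ⟨fun _ hF ⟨_, hA⟩ => almostRigid_periodic (by norm_num) (almostRigid_three hF) hA,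
    fun _ _ hd hF ⟨_, hA⟩ => almostRigid_periodic hd hF hA,
    fun _ _ hF => rigid_periodic hF, fun _ _ hd hk => generic_rigid hd hk,
    fun _ _ hd hk => exists_rigid_tile hd hk⟩

end Vale.Agent.Results.P043.TilesBeyondPrisms
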